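import Vale.Agent.P216.H774.ToXC
import Vale.Agent.P216.B609.GoalsD

/-!
# P216-D, block GEN: powers of closed Moore paths

`pwr t m w`: the closed Moore path `w` of duration `t`, `m` times.
-/

set_option linter.all false

namespace Vale.Agent.P216.H774D

open Set BoundedContinuousFunction
open Vale.Agent.P216.B64 Vale.Agent.P216.AS Vale.Agent.P216.GM Vale.Agent.P216.MV337
open Vale.Agent.P216.PS

variable {M : Type} [MetricSpace M] [CompactSpace M]

/-- A map which sends every closed Moore path of duration `t` to its `m`-th power. -/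
def PwP (m : ℕ) (t : ℝ) (f : (ℝ →ᵇ M) → (ℝ →ᵇ M)) : Prop :=
  ∀ w ∈ FL M t, f w ∈ FL M (m * t) ∧ ∀ j < m, ∀ u ∈ Icc (0:ℝ) t, f w (j * t + u) = w u

/-- The `m`-th power of a closed Moore path of duration `t`. -/
noncomputable def pwr (t : ℝ) : ℕ → (ℝ →ᵇ M) → (ℝ →ᵇ M)
  | 0, w => cst (w 0)
  | m + 1, w => PS.cat (m * t) (pwr t m w) w

variable {a : M} {t : ℝ} {w w' : ℝ →ᵇ M}

theorem pwr_mem_P (ht : 0 ≤ t) (hw : w ∈ P a a t) (m : ℕ) : pwr t m w ∈ P a a (m * t) := by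
  induction m with
  | zero =>
    rw [Nat.cast_zero, zero_mul]
    show cst (w 0) ∈ P a a 0
    rw [eq_left hw le_rfl]
    exact cst_mem a 0
  | succ m ih =>
    have h := cat_mem (mul_nonneg (Nat.cast_nonneg m) ht) ht ih hw
    rw [Nat.cast_succ, add_mul, one_mul]
    exact h

theorem pwr_mem (ht : 0 ≤ t) (hw : w ∈ FL M t) (m : ℕ) : pwr t m w ∈ FL M (m * t) :=
  P_subset_FL (pwr_mem_P ht (mem_FL_iff.1 hw) m)

theorem pwr_join (ht : 0 ≤ t) (hw : w ∈ FL M t) (m : ℕ) : pwr t m w (m * t) = w 0 :=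
  eq_right (pwr_mem_P ht (mem_FL_iff.1 hw) m) le_rfl

theorem pwr_apply (ht : 0 ≤ t) (hw : w ∈ FL M t) (m : ℕ) :
    ∀ j < m, ∀ u ∈ Icc (0:ℝ) t, pwr t m w (j * t + u) = w u := by
  induction m with
  | zero => intro j hj; exact absurd hj (Nat.not_lt_zero j)
  | succ m ih =>
    intro j hj u hu
    have h1 := (pwr_mem ht hw m).1
    have h2 := pwr_join ht hw m
    show PS.cat (m * t) (pwr t m w) w (j * t + u) = w u
    rw [cat_apply h1 hw.1 h2]
    rcases Nat.lt_succ_iff_lt_or_eq.1 hj with hj' | rfl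
    · have h3 : (j : ℝ) * t + u ≤ m * t := by
        have : ((j : ℝ) + 1) * t ≤ m * t :=
          mul_le_mul_of_nonneg_right (by exact_mod_cast hj') ht
        linarith [hu.2]
      rw [catf_left h3]
      exact ih j hj' u hu
    · rw [catf_right h2 (by linarith [hu.1])]
      congr 1
      ring

theorem pwP_pwr (m : ℕ) (ht : 0 ≤ t) : PwP (M := M) m t (pwr t m) :=
  fun _ hw => ⟨pwr_mem ht hw m, pwr_apply ht hw m⟩

theorem dist_pwr (ht : 0 ≤ t) (hw : w ∈ FL M t) (hw' : w' ∈ FL M t) (m : ℕ) :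
    dist (pwr t m w) (pwr t m w') ≤ dist w w' := by
  induction m with
  | zero =>
    refine (dist_le dist_nonneg).2 fun u => ?_
    exact dist_coe_le_dist (f := w) (g := w') 0
  | succ m ih =>
    refine (dist_cat_cat_le (pwr_mem ht hw m).1 (pwr_mem ht hw' m).1 hw.1 hw'.1
      (pwr_join ht hw m) (pwr_join ht hw' m)).trans ?_
    exact max_le ih le_rfl

theorem umap_pwr (m : ℕ) (ht : 0 ≤ t) : UMap (FL M t) (FL M (m * t)) (pwr t m) :=
  ⟨fun _ hw => pwr_mem ht hw m, fun e => e.elim, fun ε hε =>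
    ⟨ε, hε, fun _ hw _ hw' h => (dist_pwr ht hw hw' m).trans_lt h⟩⟩

/-- Two maps with `PwP` agree on `FL M t`. -/
theorem PwP.eqOn {m : ℕ} (hm : 1 ≤ m) (ht : 0 < t) {f g : (ℝ →ᵇ M) → (ℝ →ᵇ M)}
    (hf : PwP m t f) (hg : PwP m t g) : EqOn f g (FL M t) := by
  intro w hw
  obtain ⟨f1, f2⟩ := hf w hw
  obtain ⟨g1, g2⟩ := hg w hw
  have hm0 : (0:ℝ) < m := by exact_mod_cast hm
  have h0 : f w 0 = g w 0 := by
    have e1 := f2 0 hm 0 ⟨le_rfl, ht.le⟩
    have e2 := g2 0 hm 0 ⟨le_rfl, ht.le⟩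
    rw [Nat.cast_zero, zero_mul, zero_add] at e1 e2
    rw [e1, e2]
  refine BoundedContinuousFunction.ext fun x => ?_
  rcases lt_or_ge x 0 with h1 | h1
  · rw [f1.2.1 x h1.le, g1.2.1 x h1.le, h0]
  rcases le_or_gt (m * t) x with h2 | h2
  · rw [f1.2.2 x h2, g1.2.2 x h2, h0]
  have h3 : x / t < m := by rwa [div_lt_iff₀ ht]
  have h4 : 0 ≤ x / t := div_nonneg h1 ht.le
  set j := ⌊x / t⌋₊ with hj
  have h5 : j < m := (Nat.floor_lt h4).2 h3
  have h6 : (j : ℝ) * t ≤ x := by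
    rw [← le_div_iff₀ ht]
    exact Nat.floor_le h4
  have h7 : x ≤ (j : ℝ) * t + t := by
    have := (Nat.lt_floor_add_one (x / t)).le
    rw [div_le_iff₀ ht] at this
    rw [← hj] at this
    linarith
  have h8 : x = j * t + (x - j * t) := by ring
  rw [h8, f2 j h5 _ ⟨by linarith, by linarith⟩, g2 j h5 _ ⟨by linarith, by linarith⟩]

end Vale.Agent.P216.H774D
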