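import Vale.Agent.P216.H774D.Pwr

/-!
# P216-D, block GEN: from the Moore-Lipschitz loops to the energy sublevels

`FLGenD` = `B609.XGenD` for the sets `FL M t`, `t > 0`, of closed Moore paths, and the transfer
`FLGenD → XGenD`.
-/

set_option linter.all false

namespace Vale.Agent.P216.H774D

open Set BoundedContinuousFunction
open Vale.Agent.P216.B64 Vale.Agent.P216.AS Vale.Agent.P216.GM Vale.Agent.P216.MV337
open Vale.Agent.P216.PS Vale.Agent.P216.B609
open Vale.Agent.P216.H774 (FLFam hpull_G gX gX_eq exists_level gX_zero)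
open Vale.Agent.P216.H901 (SpIntl Hp)
open Vale.Agent.P216.L250 (XE LM fn XE_mono fn_rev ext_fn fn_periodic fn_iter iter_mem)

/-- Output of the topology of the closed Moore paths, for one field: `B609.XGenD` for `FL M t`. -/
structure FLGenD (M : Type) [MetricSpace M] (q : ℕ) (e : ℕ → ℕ) (B : ℝ) (m : ℕ) (k : Type)
    [Field k] extends FLFam M k where
  span : ∀ n t, 0 < t → ∀ (h : FL M t ⊆ FL M (t + B)) (z : HU k (FL M (t + B)) n),
    ∃ c : k, hres k h n z = c • g n t
  /-- weights of the power map -/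
  wt : ∀ n t, 0 < t → ∀ f, PwP m t f → ∀ h : UMap (FL M t) (FL M (m * t)) f,
    hpull k h n (g n (m * t)) = wtD k q m n • g n t
  e_mono : StrictMono e
  e_par : ∀ i, e i % 2 = q
  e_ge : ∀ i, 3 ≤ e i
  /-- no class just below the degree `e i` -/
  gap : ∀ i t t', 0 < t → 0 < t' → g (e i) t ≠ 0 → g (e i - 1) t' = 0
  birth0 : ∀ t, 0 < t → B ≤ t → g (e 0) t ≠ 0
  birth : ∀ i t, 0 < t → g (e i) t ≠ 0 → g (e (i + 1)) (t + B) ≠ 0

section Moore

variable {M : Type} [MetricSpace M] [CompactSpace M]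
  (I : SpIntl (fun t => XE M t) (fun _ => ∅) (fun t => FL M t) (fun _ => ∅) 1)
  {k : Type} [Field k] {n : ℕ} {s t u u' : ℝ} (F : FLFam M k)

/-- `iter m` between energy sublevels. -/
theorem umap_iterE (m : ℕ) {a b : ℝ} (ha : 0 ≤ a) (hb : m * a ≤ b) :
    UMap (XE M a) (XE M b) (L250.iter m : LM M → LM M) := by
  refine ⟨fun g hg => XE_mono (mul_nonneg (Nat.cast_nonneg m) ha) hb (iter_mem hg m),
    fun e => e.elim, fun ε hε => ⟨ε, hε, fun g _ g' _ h => lt_of_le_of_lt ?_ h⟩⟩
  exact (ContinuousMap.dist_le dist_nonneg).2 fun s => by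
    simpa [L250.iter] using ContinuousMap.dist_apply_le_dist (f := g) (g := g') _

/-- The power map commutes with the transfer. -/
theorem g_pwr (hI : ∀ t, 0 < t → ∀ w ∈ FL M t, ∀ s ∈ Icc (0:ℝ) 1, fn (I.g t w) s = w (t * s))
    {m : ℕ} (hm : 1 ≤ m) (ht : 0 < t) :
    EqOn (I.g (m * t) ∘ pwr t m) (L250.iter m ∘ I.g t) (FL M t) := by
  intro w hw
  have hm0 : (0:ℝ) < m := by exact_mod_cast hm
  refine ext_fn fun x => ?_
  show fn (I.g (m * t) (pwr t m w)) x = fn (L250.iter m (I.g t w)) x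
  rw [fn_iter]
  have e1 : fn (I.g (m * t) (pwr t m w)) x = fn (I.g (m * t) (pwr t m w)) (Int.fract x) := by
    have := (fn_periodic (I.g (m * t) (pwr t m w))).sub_int_mul_eq ⌊x⌋ (x := x)
    rw [mul_one] at this
    exact this.symm
  have e2 : fn (I.g t w) (m * x) = fn (I.g t w) (m * Int.fract x) := by
    have := (fn_periodic (I.g t w)).sub_int_mul_eq (m * ⌊x⌋) (x := m * x)
    rw [← this]
    congr 1
    have := Int.self_sub_floor x
    push_cast
    rw [← this]
    ring
  rw [e1, e2]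
  have hf0 := Int.fract_nonneg x
  have hf1 := (Int.fract_lt_one x)
  rw [hI (m * t) (by positivity) _ (pwr_mem ht.le hw m) _ ⟨hf0, hf1.le⟩]
  -- `m * fract x = j + r`
  have h0 : (0:ℝ) ≤ m * Int.fract x := by positivity
  set j := ⌊(m:ℝ) * Int.fract x⌋₊ with hj
  have h1 : (m:ℝ) * Int.fract x < m := by nlinarith
  have h2 : j < m := (Nat.floor_lt h0).2 h1
  have h3 : (j:ℝ) ≤ m * Int.fract x := Nat.floor_le h0
  have h4 : (m:ℝ) * Int.fract x < j + 1 := Nat.lt_floor_add_one _
  have e3 : fn (I.g t w) (m * Int.fract x) = fn (I.g t w) (m * Int.fract x - j) := by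
    have := (fn_periodic (I.g t w)).sub_nat_mul_eq j (x := m * Int.fract x)
    rw [mul_one] at this
    exact this.symm
  rw [e3, hI t ht _ hw _ ⟨by linarith, by linarith⟩]
  have e4 : (m:ℝ) * t * Int.fract x = j * t + t * (m * Int.fract x - j) := by ring
  rw [e4, pwr_apply ht.le hw m j h2 _ ⟨mul_nonneg ht.le (by linarith), by nlinarith⟩]

theorem gX_wt (hI : ∀ t, 0 < t → ∀ w ∈ FL M t, ∀ s ∈ Icc (0:ℝ) 1, fn (I.g t w) s = w (t * s))
    {m : ℕ} (hm : 1 ≤ m) {c : k} (hc : ∀ t, 0 < t → ∀ f, PwP m t f →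
      ∀ h : UMap (FL M t) (FL M (m * t)) f, hpull k h n (F.g n (m * t)) = c • F.g n t) (s : ℝ) :
    hpull k (umap_iter m s) n (gX I F n (m * s)) = c • gX I F n s := by
  have hm1 : (1:ℝ) ≤ m := by exact_mod_cast hm
  -- the level `v` with `XL M s ⊆ XE M v`
  obtain ⟨v, hv⟩ : ∃ v, v = max s 0 + 1 := ⟨_, rfl⟩
  have hv0 : 0 < v := by rw [hv]; positivity
  have hmax := le_max_right s 0
  have hsv : XL M s ⊆ XE M v := XL_subset (by linarith)
  have hvv : XE M v ⊆ XE M (v + 1 + 1) := XE_mono hv0.le (by linarith)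
  have hbig : XL M (m * s) ⊆ XE M (m * (v + 1 + 1)) := by
    refine XL_subset ?_
    have h : (m : ℝ) * max s 0 = max (m * s) 0 := by
      rw [mul_max_of_nonneg _ _ (Nat.cast_nonneg m), mul_zero]
    rw [← h]
    exact mul_le_mul_of_nonneg_left (by linarith) (by positivity)
  have hψ : UMap (XE M (v + 1 + 1)) (XE M (m * (v + 1 + 1))) (L250.iter m : LM M → LM M) :=
    umap_iterE m (by linarith) le_rfl
  have hψ' : UMap (XE M v) (XE M (m * (v + 1 + 1))) (L250.iter m : LM M → LM M) :=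
    hψ.mono hvv fun x hx => hψ.mapsX (hvv hx)
  -- the classes `y` on `XE M (v + 2)`, `Y` on `XE M (m (v + 2))`
  set y : HU k (XE M (v + 1 + 1)) n :=
    hpull k (umf I (by linarith) le_rfl le_rfl) n (F.g n (v + 1 + 1 + 1)) with hy
  have hmv : (0:ℝ) < m * (v + 1 + 1) := by positivity
  set Y : HU k (XE M (m * (v + 1 + 1))) n :=
    hpull k (umf I hmv le_rfl le_rfl) n (F.g n (m * (v + 1 + 1) + 1)) with hY
  have hg : UMap (FL M (v + 1)) (XE M (v + 1 + 1)) (I.g (v + 1)) :=
    umg I (by linarith) le_rfl le_rfl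
  have hf : UMap (XE M v) (FL M (v + 1)) (I.f v) := umf I hv0 le_rfl le_rfl
  have hmv1 : (0:ℝ) < m * (v + 1) := by positivity
  have hsub : XE M (m * (v + 1) + 1) ⊆ XE M (m * (v + 1 + 1)) :=
    XE_mono (by positivity) (by nlinarith)
  have hG0 : UMap (FL M (m * (v + 1))) (XE M (m * (v + 1) + 1)) (I.g (m * (v + 1))) :=
    umg I hmv1 le_rfl le_rfl
  have hG : UMap (FL M (m * (v + 1))) (XE M (m * (v + 1 + 1))) (I.g (m * (v + 1))) :=
    umg I hmv1 le_rfl hsub
  have B1 : hpull k hg n y = F.g n (v + 1) := by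
    rw [hy, hpull_gf I (by linarith) hg _ le_rfl, F.res_g n _ _ (by linarith) (by linarith)]
  have B2 : hpull k hG n Y = F.g n (m * (v + 1)) := by
    have e1 : hres k hsub n Y = hpull k (umf I (t := m * (v + 1) + 1) (by positivity) le_rfl le_rfl)
        n (F.g n (m * (v + 1) + 1 + 1)) := by
      rw [hY, hres_hpull _ _ (umf I hmv hsub le_rfl)]
      exact hpull_G I F hmv hsub le_rfl (by positivity) le_rfl le_rfl _ _
    rw [← hpull_hres hG0 hsub hG, e1, hpull_gf I hmv1 hG0 _ le_rfl,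
      F.res_g n _ _ hmv1 (by linarith)]
  have C1 : hpull k hg n (hpull k hψ n Y) = hpull k hg n (c • y) := by
    rw [hpull_hpull _ _ (hψ.comp hg),
      ← hpull_congr (hG.comp (umap_pwr m (by linarith))) _ (g_pwr I hI hm (by linarith)),
      ← hpull_hpull hG (umap_pwr m (by linarith)), B2, map_smul, B1]
    exact hc (v + 1) (by linarith) _ (pwP_pwr m (by linarith)) _
  have D1 : hres k hvv n (hpull k hψ n Y) = hres k hvv n (c • y) := by
    rw [← hpull_fg I hv0 le_rfl le_rfl le_rfl hf hg hvv, C1,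
      hpull_fg I hv0 le_rfl le_rfl le_rfl hf hg hvv]
  have hsy : gX I F n s = hres k (hsv.trans hvv) n y := by
    rw [hy, hres_hpull _ _ (umf I (by linarith) (hsv.trans hvv) le_rfl)]
    exact gX_eq I F (by linarith) (hsv.trans hvv) le_rfl _
  have hsY : gX I F n (m * s) = hres k hbig n Y := by
    rw [hY, hres_hpull _ _ (umf I hmv hbig le_rfl)]
    exact gX_eq I F hmv hbig le_rfl _
  have E1 := congrArg (hres k hsv n) D1
  rw [res_res, res_res, map_smul] at E1
  have hc2 : UMap (XL M s) (XE M (m * (v + 1 + 1))) (L250.iter m : LM M → LM M) :=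
    hψ.mono (hsv.trans hvv) fun x hx => hψ.mapsX ((hsv.trans hvv) hx)
  rw [hsy, hsY, hpull_hres (umap_iter m s) hbig hc2, ← E1]
  exact (hres_hpull hψ (hsv.trans hvv) hc2 Y).symm

end Moore

section Out

variable {M : Type} [MetricSpace M] [CompactSpace M]
  (I : SpIntl (fun t => XE M t) (fun _ => ∅) (fun t => FL M t) (fun _ => ∅) 1)
  {q : ℕ} {e : ℕ → ℕ} {B : ℝ} {m : ℕ} {k : Type} [Field k] (F : FLGenD M q e B m k)

/-- **The transfer.** -/
noncomputable def xGenD (hB : 0 < B) (hm : 1 ≤ m)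
    (hI : ∀ t, 0 < t → ∀ w ∈ FL M t, ∀ s ∈ Icc (0:ℝ) 1, fn (I.g t w) s = w (t * s)) :
    XGenD M q e (B + 3) m k where
  g := gX I F.toFLFam
  res_g n s t h := by
    have hX : XL M s ⊆ XE M (max t 0 + 1) := (XL_mono h).trans (XL_subset (by linarith))
    rw [H774.gX, hres_hpull _ _ (umf I (by positivity) hX le_rfl)]
    exact (gX_eq I F.toFLFam (by positivity) hX le_rfl _).symm
  span n t ht h z := by
    have ht1 : 0 < t + 1 := by linarith
    have hXt : XL M t ⊆ XE M (t + 1) := XL_subset (max_le (by linarith) (by linarith))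
    have hY : XE M (t + 1 + 1 + B + 1) ⊆ XL M (t + (B + 3)) := by
      rw [XL_eq (by linarith)]
      exact XE_mono (by linarith) (by linarith)
    have hg : UMap (FL M (t + 1 + 1 + B)) (XL M (t + (B + 3))) (I.g (t + 1 + 1 + B)) :=
      umg I (by linarith) le_rfl hY
    have hg' : UMap (FL M (t + 1 + 1)) (XL M (t + (B + 3))) (I.g (t + 1 + 1 + B)) :=
      umg I (by linarith) (by linarith) hY
    have hf : UMap (XL M t) (FL M (t + 1 + 1)) (I.f (t + 1)) := umf I ht1 hXt le_rfl
    obtain ⟨c, hc⟩ := F.span n (t + 1 + 1) (by linarith) (FL_mono (by linarith))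
      (hpull k hg n z)
    refine ⟨c, ?_⟩
    rw [hres_hpull _ _ hg'] at hc
    have := congrArg (hpull k hf n) hc
    rw [hpull_fg I ht1 hXt (by linarith) hY hf hg' h, map_smul] at this
    rw [this, gX_eq I F.toFLFam ht1 hXt le_rfl hf]
  wt n t := gX_wt I F.toFLFam hI hm (fun t ht => F.wt n t ht) t
  e_mono := F.e_mono
  e_par := F.e_par
  e_ge := F.e_ge
  gap i t t' h := by
    obtain ⟨v, hv, hne⟩ := exists_level I F.toFLFam h
    by_contra h'
    obtain ⟨v', hv', hne'⟩ := exists_level I F.toFLFam h'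
    exact hne' (F.gap i v v' hv hv' hne)
  birth0 t ht h := by
    have h1 := gX_zero I F.toFLFam (by linarith) h
    exact F.birth0 (t - 1) (by linarith) (by linarith) h1
  birth i t ht h h' := by
    have h1 := gX_zero I F.toFLFam (by linarith) h'
    rw [show t + (B + 3) - 1 = t + 1 + 1 + B by ring] at h1
    refine F.birth i (t + 1 + 1) (by linarith) (fun h2 => h ?_) h1
    have hXt : XL M t ⊆ XE M (t + 1) := XL_subset (max_le (by linarith) (by linarith))
    rw [gX_eq I F.toFLFam (by linarith) hXt le_rfl (umf I (by linarith) hXt le_rfl), h2, map_zero]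

end Out

end Vale.Agent.P216.H774D
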