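import Vale.Agent.P216.H774D.MainH
import Vale.Agent.P216.H894.GenE2

/-!
# P216-D: the main theorems from the based loops and the outputs `E2Out` of the Leray zigzag
-/

set_option linter.all false

open Set Topology Bundle Manifold
open scoped ContDiff

namespace Vale.Agent.P216.H774D

open Vale.Agent.P216.B609 Vale.Agent.P216.B64 Vale.Agent.P216.H133C Vale.Agent.P216.H894
open Vale.Agent.P216.H550 Vale.Agent.P216.H754B Vale.Agent.P216.H901 Vale.Agent.P216.GM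

theorem famWt_of {M : Type} [MetricSpace M] {k : Type} [Field k] {q m : ℕ} (hm : 1 ≤ m)
    (h : ∀ n (o : (XP k M n).Fam), EigPw k M m hm n o (wtD k q m n)) : FamWt M q m k :=
  fun n o t ht _ f hf hU => h n o t ht f hf hU

/-- a nonzero scalar is the image of a positive number -/
theorem one_le_of_ne {k : Type} [Field k] {m : ℕ} (h : (m : k) ≠ 0) : 1 ≤ m := by
  rcases Nat.eq_zero_or_pos m with rfl | h1
  · exact absurd Nat.cast_zero h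
  · exact h1

/-- **`d` even, `h ≥ 1`.** -/
theorem main_h_E2
    {E : Type} [NormedAddCommGroup E] [NormedSpace ℝ E] [FiniteDimensional ℝ E]
    {M : Type} [MetricSpace M] [CompactSpace M] [ChartedSpace E M] [IsManifold 𝓘(ℝ, E) ∞ M]
    [RiemannianBundle (fun x : M => TangentSpace 𝓘(ℝ, E) x)]
    [IsContMDiffRiemannianBundle 𝓘(ℝ, E) ∞ E (fun x : M => TangentSpace 𝓘(ℝ, E) x)]
    [IsRiemannianManifold 𝓘(ℝ, E) M] [PathConnectedSpace M]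
    {d h N : ℕ} (hd : Even d) (hd4 : 4 ≤ d) (hh : 0 < h) (hD : N + 2 = d * (h + 1)) (P0 : ℕ)
    (x₀ : M)
    (H : ∀ ρ : ℝ, 0 < ρ → LS.UniqSeg M ρ → ∃ B : ℝ, 0 < B ∧ ∀ p : ℕ, ∀ _ : Fact p.Prime, 2 < p →
      P0 < p → Nonempty (OmegaOutC M (d - 1) N x₀ B (ZMod p)) ∧
        ∀ (m : ℕ) (hm : 1 ≤ m), (m : ZMod p) ≠ 0 → (m : ZMod p) ≠ 1 →
          (m : ZMod p) ^ (d / 2) = 1 →
          E2Out (ZMod p) M x₀ (BsE d h) (FsE d N) (wE (m : ZMod p) N)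
            (EigPw (ZMod p) M m hm)) :
    (primeClosedGeodesicImages M).Infinite := by
  refine main_h (E := E) hd hd4 hh hD P0 x₀ fun ρ hρ hU => ?_
  obtain ⟨B, hB, H⟩ := H ρ hρ hU
  refine ⟨B, hB, fun p hp h2 hP => ?_⟩
  obtain ⟨⟨O⟩, H⟩ := H p hp h2 hP
  refine ⟨⟨O⟩, fun m hm0 hm1 hms => ?_⟩
  have hm := one_le_of_ne hm0
  obtain ⟨h1, h2⟩ := stab_even hm (Nat.even_iff.1 hd) hd4 hh hD (by omega) hm0 hm1 hms hB O
    (H m hm hm0 hm1 hms)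
  exact ⟨h1, famWt_of hm h2⟩

/-- **`h = 1`, `d = n` even.** -/
theorem main_1e_E2
    {E : Type} [NormedAddCommGroup E] [NormedSpace ℝ E] [FiniteDimensional ℝ E]
    {M : Type} [MetricSpace M] [CompactSpace M] [ChartedSpace E M] [IsManifold 𝓘(ℝ, E) ∞ M]
    [RiemannianBundle (fun x : M => TangentSpace 𝓘(ℝ, E) x)]
    [IsContMDiffRiemannianBundle 𝓘(ℝ, E) ∞ E (fun x : M => TangentSpace 𝓘(ℝ, E) x)]
    [IsRiemannianManifold 𝓘(ℝ, E) M] [PathConnectedSpace M]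
    {n : ℕ} (hn : Even n) (hn4 : 4 ≤ n) (P0 : ℕ) (x₀ : M)
    (H : ∀ ρ : ℝ, 0 < ρ → LS.UniqSeg M ρ → ∃ B : ℝ, 0 < B ∧ ∀ p : ℕ, ∀ _ : Fact p.Prime, 2 < p →
      P0 < p → Nonempty (OmegaOut M (n - 1) x₀ B (ZMod p)) ∧
        ∀ (m : ℕ) (hm : 1 ≤ m), (m : ZMod p) ≠ 0 → (m : ZMod p) ≠ 1 →
          (m : ZMod p) ^ (n / 2) = 1 →
          E2Out (ZMod p) M x₀ (BsE n 1) (FsE n (2 * n - 2)) (wE (m : ZMod p) (2 * n - 2))
            (EigPw (ZMod p) M m hm)) :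
    (primeClosedGeodesicImages M).Infinite := by
  refine main_1e (E := E) hn hn4 P0 x₀ fun ρ hρ hU => ?_
  obtain ⟨B, hB, H⟩ := H ρ hρ hU
  refine ⟨B, hB, fun p hp h2 hP => ?_⟩
  obtain ⟨⟨O⟩, H⟩ := H p hp h2 hP
  refine ⟨⟨O⟩, fun m hm0 hm1 hms => ?_⟩
  have hm := one_le_of_ne hm0
  have A := ar_even (k := ZMod p) (d := n) (h := 1) (N := 2 * n - 2) (μ := (m : ZMod p))
    (Nat.even_iff.1 hn) hn4 le_rfl (by omega) hm0 hm1 hms
  have E' := H m hm hm0 hm1 hms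
  refine ⟨stab_of_e2 A E' fun i => ?_, famWt_of hm fun n o =>
    eig_of_e2 A E' (fun n o c => eigPw_zero n o c) n o⟩
  have hdeg : (2 * i + 1) * (n - 1) = i * (2 * n - 2) + (n - 1) := by
    have h3 : 2 * n - 2 = 2 * (n - 1) := by omega
    rw [h3]
    ring
  have h4 := exists_ne_om O hB.le (2 * i + 1)
  rw [hdeg] at h4
  exact h4

/-- **`h = 1`, `d = n` odd, `n ≥ 5`.** -/
theorem main_1o_E2
    {E : Type} [NormedAddCommGroup E] [NormedSpace ℝ E] [FiniteDimensional ℝ E]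
    {M : Type} [MetricSpace M] [CompactSpace M] [ChartedSpace E M] [IsManifold 𝓘(ℝ, E) ∞ M]
    [RiemannianBundle (fun x : M => TangentSpace 𝓘(ℝ, E) x)]
    [IsContMDiffRiemannianBundle 𝓘(ℝ, E) ∞ E (fun x : M => TangentSpace 𝓘(ℝ, E) x)]
    [IsRiemannianManifold 𝓘(ℝ, E) M] [PathConnectedSpace M]
    {n : ℕ} (hn : Odd n) (hn4 : 4 ≤ n) (P0 : ℕ) (x₀ : M)
    (H : ∀ ρ : ℝ, 0 < ρ → LS.UniqSeg M ρ → ∃ B : ℝ, 0 < B ∧ ∀ p : ℕ, ∀ _ : Fact p.Prime, 2 < p →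
      P0 < p → Nonempty (OmegaOut M (n - 1) x₀ B (ZMod p)) ∧
        ∀ (m : ℕ) (hm : 1 ≤ m), (m : ZMod p) ≠ 0 → (m : ZMod p) ≠ 1 →
          (m : ZMod p) ^ ((n + 1) / 2) = 1 →
          E2Out (ZMod p) M x₀ (BsO n) (FsO n) (wO (m : ZMod p) n) (EigPw (ZMod p) M m hm)) :
    (primeClosedGeodesicImages M).Infinite := by
  refine main_1o (E := E) hn hn4 P0 x₀ fun ρ hρ hU => ?_
  obtain ⟨B, hB, H⟩ := H ρ hρ hU
  refine ⟨B, hB, fun p hp h2 hP => ?_⟩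
  obtain ⟨⟨O⟩, H⟩ := H p hp h2 hP
  refine ⟨⟨O⟩, fun m hm0 hm1 hms => ?_⟩
  have hm := one_le_of_ne hm0
  have hn5 : 5 ≤ n := by
    obtain ⟨c, hc⟩ := hn
    omega
  obtain ⟨h1, h2⟩ := stab_odd hm (Nat.odd_iff.1 hn) hn5 hm0 hm1 hms hB.le O
    (H m hm hm0 hm1 hms)
  exact ⟨h1, famWt_of hm h2⟩

end Vale.Agent.P216.H774D
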