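import Vale.Agent.P216.H774D.ToXD
import Vale.Agent.P216.H550.GenD2
import Vale.Agent.P216.H269D.Main
import Vale.Agent.P216.H539.StMoore
import Mathlib.NumberTheory.LSeries.PrimesInAP
import Mathlib.FieldTheory.Finite.Basic

/-!
# P216-D, block GEN: assembly

`xdGoal_of_stab`: from the based loops (`OmegaOutC`), the stable classes (`Stab`) and their weights
under the power map to `XDGoal M Q 1 (fun i => i * N + (d - 1))`, for the primes `p` with
`p % (d / 2) = 1`.
-/

set_option linter.all false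

namespace Vale.Agent.P216.H774D

open Set BoundedContinuousFunction
open Vale.Agent.P216.B64 Vale.Agent.P216.AS Vale.Agent.P216.GM Vale.Agent.P216.MV337
open Vale.Agent.P216.PS Vale.Agent.P216.B609 Vale.Agent.P216.H550 Vale.Agent.P216.H901
open Vale.Agent.P216.H754B Vale.Agent.P216.H894 Vale.Agent.P216.H83 Vale.Agent.P216.H285
open Vale.Agent.P216.H774 (FLFam hpull_G gX gX_eq exists_level gX_zero)
open Vale.Agent.P216.H133C

/-- **Weights**: every compatible family of `H^n(FL M t)` is an eigenvector of the power map. -/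
def FamWt (M : Type) [MetricSpace M] (q m : ℕ) (k : Type) [Field k] : Prop :=
  ∀ n (o : (XP k M n).Fam) (t : ℝ) (ht : 0 < t) (ht' : 0 < (m : ℝ) * t), ∀ f, PwP m t f →
    ∀ h : UMap (FL M t) (FL M (m * t)) f,
      hpull k h n (show HU k (FL M (m * t)) n from o.z (m * t) ht') =
        wtD k q m n • (show HU k (FL M t) n from o.z t ht)

section Out

variable {M : Type} [MetricSpace M] {k : Type} [Field k]
  (g : ∀ n, (XP k M n).Fam)

/-- The generators, for all real `t`. -/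
noncomputable def gR (n : ℕ) (t : ℝ) : HU k (FL M t) n :=
  if ht : 0 < t then (g n).z t ht else (0 : HU k (FL M t) n)

theorem gR_eq (n : ℕ) (t : ℝ) (ht : 0 < t) : gR g n t = (g n).z t ht := by
  unfold gR
  exact dif_pos ht

/-- **`FLGenD` from the families.** -/
noncomputable def flGenD {q m : ℕ} {e : ℕ → ℕ} {B : ℝ} (hm : 1 ≤ m) (hB : 0 ≤ B)
    (hl : ∀ n, (XP k M n).Line (g n) B) (hw : FamWt M q m k)
    (he : StrictMono e) (hp : ∀ i, e i % 2 = q) (h3 : ∀ i, 3 ≤ e i)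
    (hgap : ∀ i t (ht : 0 < t), (g (e i - 1)).z t ht = 0)
    (hb0 : ∀ t (ht : 0 < t), B ≤ t → (g (e 0)).z t ht ≠ 0)
    (hb : ∀ i t (ht : 0 < t) (ht' : 0 < t + B), (g (e i)).z t ht ≠ 0 →
      (g (e (i + 1))).z (t + B) ht' ≠ 0) : FLGenD M q e B m k where
  g := gR g
  res_g n s t hs h := by
    rw [gR_eq g n s hs, gR_eq g n t (hs.trans_le h)]
    exact (g n).comp s t hs h
  span n t ht h z := by
    obtain ⟨a, ha⟩ := hl n t (t + B) ht (by linarith) le_rfl z
    refine ⟨a, ?_⟩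
    rw [gR_eq g n t ht]
    exact ha
  wt n t ht f hf h := by
    have hm0 : (0:ℝ) < m := by exact_mod_cast hm
    have ht' : 0 < (m : ℝ) * t := mul_pos hm0 ht
    rw [gR_eq g n t ht, gR_eq g n _ ht']
    exact hw n (g n) t ht ht' f hf h
  e_mono := he
  e_par := hp
  e_ge := h3
  gap i t t' ht ht' _ := by
    rw [gR_eq g _ t' ht']
    exact hgap i t' ht'
  birth0 t ht h := by
    rw [gR_eq g _ t ht]
    exact hb0 t ht h
  birth i t ht h := by
    rw [gR_eq g _ t ht] at h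
    rw [gR_eq g _ (t + B) (by linarith)]
    exact hb i t ht (by linarith) h

end Out

/-- A power `m` with `m ≠ 0, 1` and `m ^ s = 1` in `ZMod p`, if `p ≡ 1` modulo `s`, `2 ≤ s`. -/
theorem exists_unit_root {p s : ℕ} [hp : Fact p.Prime] (hs : 2 ≤ s) (h : s ∣ p - 1) :
    ∃ m : ℕ, 1 ≤ m ∧ (m : ZMod p) ≠ 0 ∧ (m : ZMod p) ≠ 1 ∧ (m : ZMod p) ^ s = 1 := by
  have hp2 := hp.out.two_le
  have hc : IsCyclic (ZMod p)ˣ := inferInstance
  obtain ⟨u, hu⟩ := hc.exists_generator
  have hord : orderOf u = p - 1 := by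
    rw [orderOf_eq_card_of_forall_mem_zpowers hu, Nat.card_eq_fintype_card, ZMod.card_units]
  obtain ⟨r, hr⟩ := h
  have hr0 : r ≠ 0 := by
    rintro rfl
    omega
  have hov : orderOf (u ^ r) = s := by
    rw [orderOf_pow' u hr0, hord, hr, Nat.gcd_eq_right (Dvd.intro_left s rfl)]
    exact Nat.mul_div_cancel _ (Nat.pos_of_ne_zero hr0)
  set v : (ZMod p)ˣ := u ^ r with hv
  have hv1 : v ^ s = 1 := by rw [← hov]; exact pow_orderOf_eq_one v
  have hvne : (v : ZMod p) ≠ 1 := by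
    intro h1
    have : v = 1 := Units.ext h1
    rw [this, orderOf_one] at hov
    omega
  have hcast : (((v : ZMod p).val : ℕ) : ZMod p) = v := by
    rw [ZMod.natCast_val, ZMod.cast_id]
  refine ⟨(v : ZMod p).val, ?_, ?_, ?_, ?_⟩
  · rw [Nat.one_le_iff_ne_zero]
    intro h0
    have := v.ne_zero
    rw [ZMod.val_eq_zero] at h0
    exact this h0
  · rw [hcast]
    exact v.ne_zero
  · rw [hcast]
    exact hvne
  · rw [hcast, ← Units.val_pow_eq_pow_val, hv1, Units.val_one]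

/-- The input of the assembly at a field `k`. -/
structure InD (M : Type) [MetricSpace M] (d N : ℕ) (x₀ : M) (B : ℝ) (k : Type) [Field k] :
    Prop where
  om : Nonempty (OmegaOutC M (d - 1) N x₀ B k)
  stab : ∀ m : ℕ, (m : k) ≠ 0 → (m : k) ≠ 1 → (m : k) ^ (d / 2) = 1 →
    Stab (fun n => XP k M n) (fun i => i * N + (d - 1)) ∧ FamWt M 1 m k

/-- **The assembly of GEN**, even case. -/
theorem xdGoal_of_dom {M : Type} [MetricSpace M] [CompactSpace M] [PathConnectedSpace M]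
    {V : Type} [NormedAddCommGroup V] [NormedSpace ℝ V]
    (T : Geometry.SimplicialComplex ℝ V) (hT : T.faces.Finite)
    (i : C(M, T.space)) (r : C(T.space, M)) (hri : (ContinuousMap.id M).Homotopic (r.comp i))
    (hM : StMoore) (x₀ : M) {d h N : ℕ} (hd : Even d) (hd4 : 4 ≤ d) (hh : 0 < h)
    (hD : N + 2 = d * (h + 1)) {Q : ℕ → Prop} (hQ : ∀ p, Q p → d / 2 ∣ p - 1)
    (H : ∀ ρ : ℝ, 0 < ρ → LS.UniqSeg M ρ → ∃ B : ℝ, 0 < B ∧ ∀ p : ℕ, ∀ _ : Fact p.Prime, 2 < p →
      Q p → InD M d N x₀ B (ZMod p)) :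
    XDGoal M Q 1 (fun i => i * N + (d - 1)) := by
  intro ρ hρ hs
  obtain ⟨B, hB, H⟩ := H ρ hρ hs
  obtain ⟨I, hI⟩ := hM M ρ hρ hs 1 one_pos
  have hdh : d * 2 ≤ d * (h + 1) := Nat.mul_le_mul_left d (by omega)
  have hqN : d - 1 < N := by omega
  obtain ⟨B', hB', G⟩ := exists_genFL hρ hs T hT i r hri x₀ hB (d - 1) N hqN
  refine ⟨B' + 3, by linarith, fun p hp h2 hQp => ?_⟩
  obtain ⟨⟨O⟩, hS⟩ := H p hp h2 hQp
  obtain ⟨m, hm1, hm0, hmne, hms⟩ := exists_unit_root (p := p) (s := d / 2) (by omega)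
    (hQ p hQp)
  obtain ⟨hS, hw⟩ := hS m hm0 hmne hms
  have h2' : (2 : ZMod p) ≠ 0 := by
    intro h0
    have h3 : ((2 : ℕ) : ZMod p) = 0 := by exact_mod_cast h0
    rw [ZMod.natCast_eq_zero_iff] at h3
    exact absurd (Nat.le_of_dvd (by norm_num) h3) (by omega)
  obtain ⟨g, _, g1, g2, g3, g4⟩ := G (ZMod p) h2' O hS
  obtain ⟨c, hc⟩ := hd
  have hNe : N % 2 = 0 := by
    have : d * (h + 1) = 2 * (c * (h + 1)) := by rw [hc]; ring
    omega
  have F : FLGenD M 1 (fun i => i * N + (d - 1)) B' m (ZMod p) := by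
    refine flGenD g hm1 hB'.le g1 hw ?_ (fun j => ?_) (fun j => by omega) g2 g3 g4
    · intro a b hab
      have : a * N < b * N := Nat.mul_lt_mul_of_pos_right hab (by omega)
      show a * N + (d - 1) < b * N + (d - 1)
      omega
    · have : (j * N) % 2 = 0 := by rw [Nat.mul_mod, hNe]; simp
      omega
  exact ⟨m, hm0, hmne, ⟨xGenD I F hB' hm1 hI⟩⟩

end Vale.Agent.P216.H774D
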