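import Vale.Agent.P216.H774D.Main
import Vale.Agent.P216.B609.MainD

/-!
# P216-D: the main theorem from the based loops and the stable classes, even case
-/

set_option linter.all false

open Set Topology Bundle Manifold
open scoped ContDiff

namespace Vale.Agent.P216.H774D

open Vale.Agent.P216.B609 Vale.Agent.P216.B64

/-- **The main theorem of P216-D, even case** (`d` even, `d ≥ 4`), from the based loops, the stable
classes and their weights (`InD`), for the primes `p > P0`, `p ≡ 1` modulo `d / 2`. -/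
theorem main_even (hL : LiftD)
    {E : Type} [NormedAddCommGroup E] [NormedSpace ℝ E] [FiniteDimensional ℝ E]
    {M : Type} [MetricSpace M] [CompactSpace M] [ChartedSpace E M] [IsManifold 𝓘(ℝ, E) ∞ M]
    [RiemannianBundle (fun x : M => TangentSpace 𝓘(ℝ, E) x)]
    [IsContMDiffRiemannianBundle 𝓘(ℝ, E) ∞ E (fun x : M => TangentSpace 𝓘(ℝ, E) x)]
    [IsRiemannianManifold 𝓘(ℝ, E) M] [PathConnectedSpace M]
    {d h N : ℕ} (hd : Even d) (hd4 : 4 ≤ d) (hh : 0 < h) (hD : N + 2 = d * (h + 1)) (P0 : ℕ)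
    (x₀ : M)
    (H : ∀ ρ : ℝ, 0 < ρ → LS.UniqSeg M ρ → ∃ B : ℝ, 0 < B ∧ ∀ p : ℕ, ∀ _ : Fact p.Prime, 2 < p →
      P0 < p → d / 2 ∣ p - 1 → InD M d N x₀ B (ZMod p)) :
    (primeClosedGeodesicImages M).Infinite := by
  obtain ⟨ρ, hρ, hs, _⟩ := Geo.exists_uniqSeg E M
  obtain ⟨n, T, i, r, hT, hri⟩ := H269D.exists_dom_manifold E M hρ hs
  refine main_D_of hL (E := E) (fun p => P0 < p ∧ d / 2 ∣ p - 1) (fun K => ?_) 1 (by norm_num) _
    (xdGoal_of_dom T hT i r hri Vale.Agent.P216.MR.stMoore x₀ hd hd4 hh hD (fun p hp => hp.2)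
      fun ρ hρ hs => ?_)
  · obtain ⟨p, hp, hlt, hmod⟩ := Nat.exists_prime_gt_modEq_one (k := d / 2) (max K P0)
      (by omega)
    refine ⟨p, lt_of_le_of_lt (le_max_left _ _) hlt, hp, lt_of_le_of_lt (le_max_right _ _) hlt, ?_⟩
    exact (Nat.modEq_iff_dvd' hp.one_lt.le).1 hmod.symm
  · obtain ⟨B, hB, h⟩ := H ρ hρ hs
    exact ⟨B, hB, fun p hp h2 hQ => h p hp h2 hQ.1 hQ.2⟩

end Vale.Agent.P216.H774D
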