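import Vale.Agent.P216.H774D.Main
import Vale.Agent.P216.H550.GenD3

/-!
# P216-D, block GEN: assembly, general form and the case `h = 1`
-/

set_option linter.all false

namespace Vale.Agent.P216.H774D

open Set BoundedContinuousFunction
open Vale.Agent.P216.B64 Vale.Agent.P216.AS Vale.Agent.P216.GM Vale.Agent.P216.MV337
open Vale.Agent.P216.PS Vale.Agent.P216.B609 Vale.Agent.P216.H550 Vale.Agent.P216.H901
open Vale.Agent.P216.H754B Vale.Agent.P216.H894 Vale.Agent.P216.H83 Vale.Agent.P216.H285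
open Vale.Agent.P216.H774 (FLFam hpull_G gX gX_eq exists_level gX_zero)
open Vale.Agent.P216.H133C

theorem two_ne {p : ℕ} (h2 : 2 < p) : (2 : ZMod p) ≠ 0 := by
  intro h0
  have h3 : ((2 : ℕ) : ZMod p) = 0 := by exact_mod_cast h0
  rw [ZMod.natCast_eq_zero_iff] at h3
  exact absurd (Nat.le_of_dvd (by norm_num) h3) (by omega)

/-- The stable input at a field `k`: families and their weights, for the powers `m` with
`m ^ s = 1`. -/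
def StabW (M : Type) [MetricSpace M] (q s : ℕ) (e : ℕ → ℕ) (k : Type) [Field k] : Prop :=
  ∀ m : ℕ, (m : k) ≠ 0 → (m : k) ≠ 1 → (m : k) ^ s = 1 →
    Stab (fun n => XP k M n) e ∧ FamWt M q m k

/-- **The assembly of GEN, general form.** -/
theorem xdGoal_gen {M : Type} [MetricSpace M] [CompactSpace M] (hM : StMoore) {s q R : ℕ}
    (hs : 2 ≤ s) {Q : ℕ → Prop} (hQ : ∀ p, Q p → s ∣ p - 1) {e : ℕ → ℕ} (he : StrictMono e)
    (hp : ∀ i, e i % 2 = q) (h3 : ∀ i, 3 ≤ e i) (hR : ∀ i, e (i + 1) ≤ e i + R)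
    (H : ∀ ρ : ℝ, 0 < ρ → LS.UniqSeg M ρ → ∃ a C : ℝ, 0 ≤ a ∧ 0 < C ∧
      ∀ p : ℕ, ∀ _ : Fact p.Prime, 2 < p → Q p →
        (∃ W : ℕ → ℝ, Wall W a ∧ W 0 = 0 ∧ ∀ n, (XP (ZMod p) M n).Step (W n) C) ∧
        StabW M q s e (ZMod p)) :
    XDGoal M Q q e := by
  intro ρ hρ hU
  obtain ⟨a, C, ha, hC, H⟩ := H ρ hρ hU
  obtain ⟨I, hI⟩ := hM M ρ hρ hU 1 one_pos
  have h1 : 0 ≤ a * (R : ℝ) := by positivity
  have h2 : 0 ≤ a * (e 0 : ℝ) := by positivity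
  have hB' : 0 < 3 * C + a * R + a * e 0 := by linarith
  refine ⟨3 * C + a * R + a * e 0 + 3, by linarith, fun p hpp h2 hQp => ?_⟩
  obtain ⟨hW, hS⟩ := H p hpp h2 hQp
  obtain ⟨m, hm1, hm0, hmne, hms⟩ := exists_unit_root (p := p) (s := s) hs (hQ p hQp)
  obtain ⟨hS, hw⟩ := hS m hm0 hmne hms
  obtain ⟨g, _, g1, g2, g3, g4⟩ := gen_of_step hC (fun i => (he (Nat.lt_succ_self i)).le) hR hW hS
  exact ⟨m, hm0, hmne, ⟨xGenD I (flGenD g hm1 hB'.le g1 hw he hp h3 g2 g3 g4) hB' hm1 hI⟩⟩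

/-- **`h = 1`, any degrees**: from `OmegaOut M b x₀ B k`. -/
theorem xdGoal_one {M : Type} [MetricSpace M] [CompactSpace M] [PathConnectedSpace M]
    {V : Type} [NormedAddCommGroup V] [NormedSpace ℝ V]
    (T : Geometry.SimplicialComplex ℝ V) (hT : T.faces.Finite)
    (i : C(M, T.space)) (r : C(T.space, M)) (hri : (ContinuousMap.id M).Homotopic (r.comp i))
    (hM : StMoore) (x₀ : M) {s q R b : ℕ} (hb : 0 < b)
    (hs : 2 ≤ s) {Q : ℕ → Prop} (hQ : ∀ p, Q p → s ∣ p - 1) {e : ℕ → ℕ} (he : StrictMono e)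
    (hp : ∀ i, e i % 2 = q) (h3 : ∀ i, 3 ≤ e i) (hR : ∀ i, e (i + 1) ≤ e i + R)
    (H : ∀ ρ : ℝ, 0 < ρ → LS.UniqSeg M ρ → ∃ B : ℝ, 0 < B ∧
      ∀ p : ℕ, ∀ _ : Fact p.Prime, 2 < p → Q p → Nonempty (OmegaOut M b x₀ B (ZMod p)) ∧
        StabW M q s e (ZMod p)) :
    XDGoal M Q q e := by
  refine xdGoal_gen hM hs hQ he hp h3 hR fun ρ hρ hU => ?_
  obtain ⟨B, hB, H⟩ := H ρ hρ hU
  obtain ⟨C, hC, h⟩ := exists_stepFL1 hρ hU T hT i r hri x₀ hB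
  refine ⟨B, C, hB.le, hC, fun p hpp h2 hQp => ?_⟩
  obtain ⟨⟨O⟩, hS⟩ := H p hpp h2 hQp
  exact ⟨h (ZMod p) (two_ne h2) b hb O, hS⟩

/-- **`h ≥ 1`, `d` even**: from `OmegaOutC M (d - 1) N x₀ B k`. -/
theorem xdGoal_even {M : Type} [MetricSpace M] [CompactSpace M] [PathConnectedSpace M]
    {V : Type} [NormedAddCommGroup V] [NormedSpace ℝ V]
    (T : Geometry.SimplicialComplex ℝ V) (hT : T.faces.Finite)
    (i : C(M, T.space)) (r : C(T.space, M)) (hri : (ContinuousMap.id M).Homotopic (r.comp i))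
    (hM : StMoore) (x₀ : M) {b N s q R : ℕ} (hb : b < N)
    (hs : 2 ≤ s) {Q : ℕ → Prop} (hQ : ∀ p, Q p → s ∣ p - 1) {e : ℕ → ℕ} (he : StrictMono e)
    (hp : ∀ i, e i % 2 = q) (h3 : ∀ i, 3 ≤ e i) (hR : ∀ i, e (i + 1) ≤ e i + R)
    (H : ∀ ρ : ℝ, 0 < ρ → LS.UniqSeg M ρ → ∃ B : ℝ, 0 < B ∧
      ∀ p : ℕ, ∀ _ : Fact p.Prime, 2 < p → Q p → Nonempty (OmegaOutC M b N x₀ B (ZMod p)) ∧
        StabW M q s e (ZMod p)) :
    XDGoal M Q q e := by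
  refine xdGoal_gen hM hs hQ he hp h3 hR fun ρ hρ hU => ?_
  obtain ⟨B, hB, H⟩ := H ρ hρ hU
  obtain ⟨C, hC, h⟩ := exists_stepFL hρ hU T hT i r hri x₀ hB
  refine ⟨2 * B, C, by linarith, hC, fun p hpp h2 hQp => ?_⟩
  obtain ⟨⟨O⟩, hS⟩ := H p hpp h2 hQp
  exact ⟨h (ZMod p) (two_ne h2) b N hb O, hS⟩

end Vale.Agent.P216.H774D
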