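import Vale.Agent.P216.H774D.MainG
import Vale.Agent.P216.H882D.LiftD
import Vale.Agent.P216.B609.MainD

/-!
# P216-D: the main theorems from the based loops and the stable classes

`main_h`: `d` even, `h ≥ 1` (`OmegaOutC`); `main_1e`: `h = 1`, `d = n` even (`OmegaOut`);
`main_1o`: `h = 1`, `d = n` odd (`OmegaOut`).  Nothing else is assumed.
-/

set_option linter.all false

open Set Topology Bundle Manifold
open scoped ContDiff

namespace Vale.Agent.P216.H774D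

open Vale.Agent.P216.B609 Vale.Agent.P216.B64 Vale.Agent.P216.H133C

/-- primes `p > P0`, `p ≡ 1` modulo `s` -/
theorem primes_mod {s : ℕ} (hs : 0 < s) (P0 K : ℕ) : ∃ p, K < p ∧ p.Prime ∧
    (P0 < p ∧ s ∣ p - 1) := by
  obtain ⟨p, hp, hlt, hmod⟩ := Nat.exists_prime_gt_modEq_one (k := s) (max K P0) (by omega)
  exact ⟨p, lt_of_le_of_lt (le_max_left _ _) hlt, hp, lt_of_le_of_lt (le_max_right _ _) hlt,
    (Nat.modEq_iff_dvd' hp.one_lt.le).1 hmod.symm⟩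

/-- **`d` even, `h ≥ 1`.** -/
theorem main_h
    {E : Type} [NormedAddCommGroup E] [NormedSpace ℝ E] [FiniteDimensional ℝ E]
    {M : Type} [MetricSpace M] [CompactSpace M] [ChartedSpace E M] [IsManifold 𝓘(ℝ, E) ∞ M]
    [RiemannianBundle (fun x : M => TangentSpace 𝓘(ℝ, E) x)]
    [IsContMDiffRiemannianBundle 𝓘(ℝ, E) ∞ E (fun x : M => TangentSpace 𝓘(ℝ, E) x)]
    [IsRiemannianManifold 𝓘(ℝ, E) M] [PathConnectedSpace M]
    {d h N : ℕ} (hd : Even d) (hd4 : 4 ≤ d) (hh : 0 < h) (hD : N + 2 = d * (h + 1)) (P0 : ℕ)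
    (x₀ : M)
    (H : ∀ ρ : ℝ, 0 < ρ → LS.UniqSeg M ρ → ∃ B : ℝ, 0 < B ∧ ∀ p : ℕ, ∀ _ : Fact p.Prime, 2 < p →
      P0 < p → Nonempty (OmegaOutC M (d - 1) N x₀ B (ZMod p)) ∧
        StabW M 1 (d / 2) (fun i => i * N + (d - 1)) (ZMod p)) :
    (primeClosedGeodesicImages M).Infinite := by
  obtain ⟨ρ, hρ, hs, _⟩ := Geo.exists_uniqSeg E M
  obtain ⟨n, T, i, r, hT, hri⟩ := H269D.exists_dom_manifold E M hρ hs
  have hdh : d * 2 ≤ d * (h + 1) := Nat.mul_le_mul_left d (by omega)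
  obtain ⟨c, hc⟩ := hd
  have hNe : N % 2 = 0 := by
    have : d * (h + 1) = 2 * (c * (h + 1)) := by rw [hc]; ring
    omega
  refine main_D_of Vale.Agent.P216.B633.liftD (E := E) (fun p => P0 < p ∧ d / 2 ∣ p - 1)
    (primes_mod (by omega) P0) 1 (by norm_num) _
    (xdGoal_even T hT i r hri Vale.Agent.P216.MR.stMoore x₀ (b := d - 1) (N := N) (s := d / 2)
      (e := fun i => i * N + (d - 1)) (R := N) (by omega) (by omega) (fun p hp => hp.2) ?_ (fun j => ?_) (fun j => ?_)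
      (fun j => ?_) fun ρ hρ hs => ?_)
  · intro a b hab
    have : a * N < b * N := Nat.mul_lt_mul_of_pos_right hab (by omega)
    show a * N + (d - 1) < b * N + (d - 1)
    omega
  · have : (j * N) % 2 = 0 := by rw [Nat.mul_mod, hNe]; simp
    omega
  · have := Nat.zero_le (j * N)
    omega
  · have : (j + 1) * N = j * N + N := by ring
    omega
  · obtain ⟨B, hB, h⟩ := H ρ hρ hs
    exact ⟨B, hB, fun p hp h2 hQ => h p hp h2 hQ.1⟩

/-- **`h = 1`, `d = n` even.** -/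
theorem main_1e
    {E : Type} [NormedAddCommGroup E] [NormedSpace ℝ E] [FiniteDimensional ℝ E]
    {M : Type} [MetricSpace M] [CompactSpace M] [ChartedSpace E M] [IsManifold 𝓘(ℝ, E) ∞ M]
    [RiemannianBundle (fun x : M => TangentSpace 𝓘(ℝ, E) x)]
    [IsContMDiffRiemannianBundle 𝓘(ℝ, E) ∞ E (fun x : M => TangentSpace 𝓘(ℝ, E) x)]
    [IsRiemannianManifold 𝓘(ℝ, E) M] [PathConnectedSpace M]
    {n : ℕ} (hn : Even n) (hn4 : 4 ≤ n) (P0 : ℕ) (x₀ : M)
    (H : ∀ ρ : ℝ, 0 < ρ → LS.UniqSeg M ρ → ∃ B : ℝ, 0 < B ∧ ∀ p : ℕ, ∀ _ : Fact p.Prime, 2 < p →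
      P0 < p → Nonempty (OmegaOut M (n - 1) x₀ B (ZMod p)) ∧
        StabW M 1 (n / 2) (fun i => i * (2 * n - 2) + (n - 1)) (ZMod p)) :
    (primeClosedGeodesicImages M).Infinite := by
  obtain ⟨ρ, hρ, hs, _⟩ := Geo.exists_uniqSeg E M
  obtain ⟨r0, T, i, r, hT, hri⟩ := H269D.exists_dom_manifold E M hρ hs
  obtain ⟨c, hc⟩ := hn
  refine main_D_of Vale.Agent.P216.B633.liftD (E := E) (fun p => P0 < p ∧ n / 2 ∣ p - 1)
    (primes_mod (by omega) P0) 1 (by norm_num) _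
    (xdGoal_one T hT i r hri Vale.Agent.P216.MR.stMoore x₀ (b := n - 1) (s := n / 2)
      (e := fun i => i * (2 * n - 2) + (n - 1)) (R := 2 * n - 2) (by omega) (by omega) (fun p hp => hp.2) ?_ (fun j => ?_) (fun j => ?_)
      (fun j => ?_) fun ρ hρ hs => ?_)
  · intro a b hab
    have : a * (2 * n - 2) < b * (2 * n - 2) := Nat.mul_lt_mul_of_pos_right hab (by omega)
    show a * (2 * n - 2) + (n - 1) < b * (2 * n - 2) + (n - 1)
    omega
  · have : (j * (2 * n - 2)) % 2 = 0 := by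
      rw [Nat.mul_mod, show (2 * n - 2) % 2 = 0 by omega]; simp
    omega
  · have := Nat.zero_le (j * (2 * n - 2))
    omega
  · have : (j + 1) * (2 * n - 2) = j * (2 * n - 2) + (2 * n - 2) := by ring
    omega
  · obtain ⟨B, hB, h⟩ := H ρ hρ hs
    exact ⟨B, hB, fun p hp h2 hQ => h p hp h2 hQ.1⟩

/-- **`h = 1`, `d = n` odd, `n ≥ 5`.** -/
theorem main_1o
    {E : Type} [NormedAddCommGroup E] [NormedSpace ℝ E] [FiniteDimensional ℝ E]
    {M : Type} [MetricSpace M] [CompactSpace M] [ChartedSpace E M] [IsManifold 𝓘(ℝ, E) ∞ M]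
    [RiemannianBundle (fun x : M => TangentSpace 𝓘(ℝ, E) x)]
    [IsContMDiffRiemannianBundle 𝓘(ℝ, E) ∞ E (fun x : M => TangentSpace 𝓘(ℝ, E) x)]
    [IsRiemannianManifold 𝓘(ℝ, E) M] [PathConnectedSpace M]
    {n : ℕ} (hn : Odd n) (hn4 : 4 ≤ n) (P0 : ℕ) (x₀ : M)
    (H : ∀ ρ : ℝ, 0 < ρ → LS.UniqSeg M ρ → ∃ B : ℝ, 0 < B ∧ ∀ p : ℕ, ∀ _ : Fact p.Prime, 2 < p →
      P0 < p → Nonempty (OmegaOut M (n - 1) x₀ B (ZMod p)) ∧
        StabW M 0 ((n + 1) / 2) (fun i => (i + 1) * (n - 1)) (ZMod p)) :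
    (primeClosedGeodesicImages M).Infinite := by
  obtain ⟨ρ, hρ, hs, _⟩ := Geo.exists_uniqSeg E M
  obtain ⟨r0, T, i, r, hT, hri⟩ := H269D.exists_dom_manifold E M hρ hs
  obtain ⟨c, hc⟩ := hn
  refine main_D_of Vale.Agent.P216.B633.liftD (E := E) (fun p => P0 < p ∧ (n + 1) / 2 ∣ p - 1)
    (primes_mod (by omega) P0) 0 (by norm_num) _
    (xdGoal_one T hT i r hri Vale.Agent.P216.MR.stMoore x₀ (b := n - 1) (s := (n + 1) / 2)
      (e := fun i => (i + 1) * (n - 1)) (R := n - 1) (by omega) (by omega) (fun p hp => hp.2) ?_ (fun j => ?_) (fun j => ?_)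
      (fun j => ?_) fun ρ hρ hs => ?_)
  · intro a b hab
    exact Nat.mul_lt_mul_of_pos_right (Nat.succ_lt_succ hab) (by omega)
  · show ((j + 1) * (n - 1)) % 2 = 0
    rw [Nat.mul_mod, show (n - 1) % 2 = 0 by omega]; simp
  · have : n - 1 ≤ (j + 1) * (n - 1) := Nat.le_mul_of_pos_left _ (by omega)
    omega
  · have : (j + 1 + 1) * (n - 1) = (j + 1) * (n - 1) + (n - 1) := by ring
    omega
  · obtain ⟨B, hB, h⟩ := H ρ hρ hs
    exact ⟨B, hB, fun p hp h2 hQ => h p hp h2 hQ.1⟩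

end Vale.Agent.P216.H774D
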